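import Vale.Agent.P181.MD.H514.DefsD

/-!
# P181, MD+: the real inequality `NumD`
-/

set_option autoImplicit false

namespace Vale.Agent.P181.MD.H706

open Finset Vale.Agent.P181.MD.H514

/-- the linear part of the estimate -/
theorem numD_aux (δ κ aR bR lR RR L A lg : ℝ) (hδ : 0 < δ) (hκ0 : 0 ≤ κ) (hκ1 : 80 * κ ≤ δ)
    (hκ2 : 80 * κ ≤ 1) (ha : 0 < aR) (hab : (1 + δ) * aR ≤ bR) (hl : 1 ≤ lR) (hR : 0 ≤ RR)
    (hA : 200 * (1 + 1 / δ) ≤ A) (hAL : A ≤ L) (hLA : L ≤ 51 / 50 * A)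
    (hlog : L - A ≤ (bR - aR) / aR) (hRR : RR ^ 2 ≤ aR) (ha1 : (200 / δ) ^ 2 ≤ aR)
    (ha2 : 24 / δ ≤ aR) (ha3 : 36 ≤ aR) (hlg0 : 0 ≤ lg) (hlg : lg ≤ 7 / 10) :
    (aR + bR) * lg + (lR * aR) * lg + (2 * bR) * lg + bR * (lg + A + L) + 2 * bR * L ≤
      (lR * (bR - 2 - aR)) * (3 / 5 * L) + (2 * bR - 3 - 2 * RR) * ((2 - κ) * A) := by
  have hd0 : 0 < 1 / δ := by positivity
  have hA0 : 200 ≤ A := by linarith
  have hL0 : 200 ≤ L := by linarith
  set D : ℝ := bR - aR with hD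
  have hDa : δ * aR ≤ D := by rw [hD]; linarith
  have hbD : bR ≤ (1 + 1 / δ) * D := by
    have h1 : aR ≤ D / δ := by
      rw [le_div_iff₀ hδ]
      linarith
    have h2 : (1 + 1 / δ) * D = D + D / δ := by ring
    rw [h2]
    linarith
  have hD24 : 24 ≤ D := by
    rw [div_le_iff₀ hδ] at ha2
    linarith
  have hb0 : 0 < bR := by nlinarith
  have hDL : 0 ≤ D * L := by positivity
  have hDL2 : D * L ≤ lR * (D * L) := by nlinarith
  -- F1
  have F1 : 3 * bR * (L - A) ≤ 12 / 100 * (D * L) := by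
    rcases le_total bR (2 * aR) with h | h
    · have h1 : bR * (L - A) ≤ 2 * D := by
        have h2 : bR * (L - A) ≤ bR * (D / aR) := mul_le_mul_of_nonneg_left hlog hb0.le
        have h3 : bR * (D / aR) ≤ (2 * aR) * (D / aR) :=
          mul_le_mul_of_nonneg_right h (by positivity)
        have h4 : (2 * aR) * (D / aR) = 2 * D := by field_simp
        linarith
      nlinarith
    · have h1 : bR ≤ 2 * D := by rw [hD]; linarith
      have h2 : L - A ≤ L / 50 := by linarith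
      have h3 : 0 ≤ L - A := by linarith
      have h4 : bR * (L - A) ≤ (2 * D) * (L / 50) := mul_le_mul h1 h2 h3 (by linarith)
      nlinarith
  -- F2
  have F2 : 2 * κ * bR * A ≤ 5 / 100 * (D * L) := by
    have h1 : κ * (1 + 1 / δ) ≤ 1 / 40 := by
      have h2 : κ * (1 / δ) ≤ 1 / 80 := by
        rw [mul_one_div, div_le_iff₀ hδ]
        linarith
      linarith
    have h2 : κ * bR ≤ 1 / 40 * D := by
      calc κ * bR ≤ κ * ((1 + 1 / δ) * D) := mul_le_mul_of_nonneg_left hbD hκ0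
        _ = (κ * (1 + 1 / δ)) * D := by ring
        _ ≤ 1 / 40 * D := mul_le_mul_of_nonneg_right h1 (by linarith)
    have h3 : κ * bR * A ≤ 1 / 40 * D * L := mul_le_mul h2 hAL (by linarith) (by positivity)
    linarith
  -- F3
  have F3 : (6 + 4 * RR) * A ≤ 5 / 100 * (D * L) := by
    have h1 : 6 + 4 * RR ≤ 5 / 100 * D := by
      -- `s = sqrt a`
      obtain ⟨s, hs0, hs⟩ : ∃ s : ℝ, 0 ≤ s ∧ s ^ 2 = aR := ⟨Real.sqrt aR, Real.sqrt_nonneg _,
        Real.sq_sqrt ha.le⟩
      have h2 : RR ≤ s := by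
        rw [← hs] at hRR
        exact (pow_le_pow_iff_left₀ hR hs0 (by norm_num)).1 hRR
      have h3 : 200 / δ ≤ s := by
        rw [← hs] at ha1
        exact (pow_le_pow_iff_left₀ (by positivity) hs0 (by norm_num)).1 ha1
      have h4 : 6 ≤ s := by
        rw [← hs] at ha3
        nlinarith
      have h5 : 200 ≤ δ * s := by
        rw [div_le_iff₀ hδ] at h3
        linarith
      have h6 : 200 * s ≤ δ * s * s := mul_le_mul_of_nonneg_right h5 hs0
      have h7 : δ * s * s = δ * aR := by rw [← hs]; ring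
      linarith
    have h2 : (6 + 4 * RR) * A ≤ (5 / 100 * D) * L := mul_le_mul h1 hAL (by linarith)
      (by linarith)
    linarith
  -- F4
  have F4 : (4 * bR + aR + lR * aR) * lg ≤ 5 / 100 * (lR * (D * L)) := by
    have haR : aR ≤ bR := by linarith
    have h1 : 4 * bR + aR + lR * aR ≤ 6 * (lR * bR) := by nlinarith
    have h2 : (4 * bR + aR + lR * aR) * lg ≤ 6 * (lR * bR) * (7 / 10) :=
      mul_le_mul h1 hlg hlg0 (by positivity)
    have h3 : bR * 200 ≤ D * L := by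
      calc bR * 200 ≤ ((1 + 1 / δ) * D) * 200 := by linarith
        _ = D * (200 * (1 + 1 / δ)) := by ring
        _ ≤ D * L := mul_le_mul_of_nonneg_left (by linarith) (by linarith)
    have h4 : lR * (bR * 200) ≤ lR * (D * L) := mul_le_mul_of_nonneg_left h3 (by linarith)
    nlinarith
  have F5 : 12 / 10 * (lR * L) ≤ 5 / 100 * (lR * (D * L)) := by
    have h1 : 24 * L ≤ D * L := mul_le_mul_of_nonneg_right hD24 (by linarith)
    have h2 : lR * (24 * L) ≤ lR * (D * L) := mul_le_mul_of_nonneg_left h1 (by linarith)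
    linarith
  have F6 : 0 ≤ (3 + 2 * RR) * (κ * A) := by positivity
  have e1 : (lR * (bR - 2 - aR)) * (3 / 5 * L) = 3 / 5 * (lR * (D * L)) - 12 / 10 * (lR * L) := by
    rw [hD]; ring
  have e2 : (2 * bR - 3 - 2 * RR) * ((2 - κ) * A) = 4 * (bR * A) - 2 * κ * bR * A -
      (6 + 4 * RR) * A + (3 + 2 * RR) * (κ * A) := by ring
  have e3 : (aR + bR) * lg + (lR * aR) * lg + (2 * bR) * lg + bR * (lg + A + L) + 2 * bR * L =
      (4 * bR + aR + lR * aR) * lg + bR * A + 3 * (bR * L) := by ring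
  have e4 : 3 * bR * (L - A) = 3 * (bR * L) - 3 * (bR * A) := by ring
  rw [e1, e2, e3]
  rw [e4] at F1
  linarith

/-- **[P2-num]** -/
theorem numD : NumD := by
  intro δ hδ
  obtain ⟨a1, ha1⟩ := exists_nat_ge (Real.exp (200 * (1 + 1 / δ)))
  obtain ⟨a2, ha2⟩ := exists_nat_ge ((200 / δ) ^ 2)
  obtain ⟨a3, ha3⟩ := exists_nat_ge (24 / δ)
  refine ⟨min δ 1 / 80, a1 + a2 + a3 + 36, by positivity, ?_, ?_⟩
  · have := min_le_right δ 1
    linarith
  intro a b l N R x ha hab h50 hl hN hR hx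
  set κ : ℝ := min δ 1 / 80 with hκ
  have hκ0 : 0 ≤ κ := by rw [hκ]; positivity
  have hκ1 : 80 * κ ≤ δ := by
    have := min_le_left δ 1
    rw [hκ]; linarith
  have hκ2 : 80 * κ ≤ 1 := by
    have := min_le_right δ 1
    rw [hκ]; linarith
  have haR : ((a1 + a2 + a3 + 36 : ℕ) : ℝ) ≤ a := by exact_mod_cast ha
  push_cast at haR
  have h1n : (0 : ℝ) ≤ a1 := Nat.cast_nonneg _
  have h2n : (0 : ℝ) ≤ a2 := Nat.cast_nonneg _
  have h3n : (0 : ℝ) ≤ a3 := Nat.cast_nonneg _
  have ha0 : (0 : ℝ) < a := by linarith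
  have hb0 : (0 : ℝ) < b := by nlinarith
  have hab2 : (a : ℝ) ≤ b := by nlinarith
  have hA : 200 * (1 + 1 / δ) ≤ Real.log a := by
    rw [Real.le_log_iff_exp_le ha0]
    linarith
  have hAL : Real.log a ≤ Real.log b := Real.log_le_log ha0 hab2
  have hLA : Real.log b ≤ 51 / 50 * Real.log a := by
    have h1 : (b : ℝ) ^ 50 ≤ (a : ℝ) ^ 51 := by exact_mod_cast h50
    have h2 := Real.log_le_log (by positivity) h1
    rw [Real.log_pow, Real.log_pow] at h2
    push_cast at h2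
    linarith
  have hlog : Real.log b - Real.log a ≤ ((b : ℝ) - a) / a := by
    rw [← Real.log_div hb0.ne' ha0.ne']
    have h1 := Real.log_le_sub_one_of_pos (x := (b : ℝ) / a) (by positivity)
    have h2 : ((b : ℝ) - a) / a = b / a - 1 := by field_simp
    rw [h2]
    exact h1
  have hRR : (R : ℝ) ^ 2 ≤ a := by exact_mod_cast hR
  have hl1 : (1 : ℝ) ≤ l := by exact_mod_cast hl
  have hlg : Real.log 2 ≤ 7 / 10 := by
    have := Real.log_two_lt_d9
    linarith
  have hlg0 : 0 ≤ Real.log 2 := Real.log_nonneg (by norm_num)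
  have key := numD_aux δ κ a b l R (Real.log b) (Real.log a) (Real.log 2) hδ hκ0 hκ1 hκ2 ha0 hab
    hl1 (Nat.cast_nonneg _) hA hAL hLA hlog hRR (by linarith) (by linarith) (by linarith) hlg0 hlg
  -- natural numbers
  have hD24 : (24 : ℝ) ≤ (b : ℝ) - a := by
    have h1 : 24 ≤ δ * a := by
      have h2 : 24 / δ ≤ a := by linarith
      rw [div_le_iff₀ hδ] at h2
      linarith
    linarith
  have hDn : a + 24 ≤ b := by
    have : (a : ℝ) + 24 ≤ b := by linarith
    exact_mod_cast this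
  have hRa : R ≤ a := by
    nlinarith [Nat.zero_le R, Nat.zero_le a]
  have c1 : ((b - 2 : ℕ) : ℝ) = (b : ℝ) - 2 := by
    rw [Nat.cast_sub (by omega)]
    norm_num
  have c2 : ((l * (b - 2 - a) : ℕ) : ℝ) = l * ((b : ℝ) - 2 - a) := by
    rw [Nat.cast_mul, Nat.cast_sub (by omega), c1]
  have c3 : ((2 * b - 3 - 2 * R : ℕ) : ℝ) = 2 * b - 3 - 2 * R := by
    rw [Nat.cast_sub (by omega), Nat.cast_sub (by omega)]
    push_cast
    ring
  have hb2 : (0 : ℝ) < (b : ℝ) - 2 := by linarith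
  have hNpos : 0 < N := by
    rcases Nat.eq_zero_or_pos N with h | h
    · subst h
      have h1 : 0 < b ^ 8 := by
        apply pow_pos
        omega
      simp at hN
      omega
    · exact h
  have hNR : (0 : ℝ) < N := by exact_mod_cast hNpos
  have hx0 : (0 : ℝ) < x := lt_of_lt_of_le (Real.rpow_pos_of_pos ha0 _) hx
  have hlx : (2 - κ) * Real.log a ≤ Real.log x := by
    rw [← Real.log_rpow ha0]
    exact Real.log_le_log (Real.rpow_pos_of_pos ha0 _) hx
  have hlN : 3 / 5 * Real.log b ≤ Real.log (1 + (N : ℝ) / ((b - 2 : ℕ) : ℝ)) := by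
    have h1 : (b : ℝ) ^ 8 ≤ (N : ℝ) ^ 5 := by exact_mod_cast hN
    have h2 := Real.log_le_log (by positivity) h1
    rw [Real.log_pow, Real.log_pow] at h2
    push_cast at h2
    have h3 : (N : ℝ) / b ≤ 1 + (N : ℝ) / ((b - 2 : ℕ) : ℝ) := by
      rw [c1]
      have h4 : (N : ℝ) / b ≤ (N : ℝ) / ((b : ℝ) - 2) :=
        div_le_div_of_nonneg_left hNR.le hb2 (by linarith)
      linarith
    have h5 := Real.log_le_log (by positivity) h3
    rw [Real.log_div hNR.ne' hb0.ne'] at h5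
    linarith
  -- the left-hand side
  have hch : (((a + b).choose a : ℕ) : ℝ) ≤ 2 ^ (a + b) := by
    exact_mod_cast Nat.choose_le_two_pow (a + b) a
  have hLHS : (((a + b).choose a : ℕ) : ℝ) * 2 ^ (l * a) * 2 ^ (2 * b) * (2 * a * b : ℝ) ^ b *
      (b : ℝ) ^ (2 * b) ≤
      2 ^ (a + b) * 2 ^ (l * a) * 2 ^ (2 * b) * (2 * a * b : ℝ) ^ b * (b : ℝ) ^ (2 * b) := by
    gcongr
  refine le_trans hLHS ?_
  have hq0 : (0 : ℝ) < 1 + (N : ℝ) / ((b - 2 : ℕ) : ℝ) := by positivity
  rw [← Real.log_le_log_iff (by positivity) (by positivity)]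
  rw [Real.log_mul (by positivity) (by positivity), Real.log_mul (by positivity) (by positivity),
    Real.log_mul (by positivity) (by positivity), Real.log_mul (by positivity) (by positivity),
    Real.log_mul (by positivity) (by positivity)]
  simp only [Real.log_pow]
  rw [Real.log_mul (by positivity) (by positivity), Real.log_mul (by positivity) (by positivity),
    c2, c3]
  push_cast
  have k1 : (l * ((b : ℝ) - 2 - a)) * (3 / 5 * Real.log b) ≤
      (l * ((b : ℝ) - 2 - a)) * Real.log (1 + (N : ℝ) / ((b - 2 : ℕ) : ℝ)) :=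
    mul_le_mul_of_nonneg_left hlN (mul_nonneg (by linarith) (by linarith))
  have k2 : (2 * (b : ℝ) - 3 - 2 * R) * ((2 - κ) * Real.log a) ≤
      (2 * (b : ℝ) - 3 - 2 * R) * Real.log x := by
    apply mul_le_mul_of_nonneg_left hlx
    have : (R : ℝ) ≤ a := by exact_mod_cast hRa
    linarith
  linarith

end Vale.Agent.P181.MD.H706
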